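import Vale.Agent.P144E.Rg.En
import Vale.Agent.P144Z.R7.Main
import Vale.Agent.P144Z.U4.Main

/-!
# Universality for every good class of boundaries
-/

namespace Vale.Agent.P144Z

open Finset

variable {Q : Cls} {q : Par} {Zσ Zε γ γ' δ δ' : ℝ} {L : ℕ}

theorem MainQ.anti (h : MainQ Q q Zσ Zε L γ δ) (h1 : γ' ≤ γ) (h2 : δ' ≤ δ) :
    MainQ Q q Zσ Zε L γ' δ' := fun N Λ Γ H a1 a2 => by
  obtain ⟨C, h⟩ := h N Λ Γ H a1 a2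
  refine ⟨C, fun ε hε => ?_⟩
  obtain ⟨J₀, h⟩ := h ε hε
  exact ⟨J₀, fun J hJ M _ P B Δ ι _ _ y d n K D b1 b2 =>
    h J hJ M P B Δ ι y d n K D b1 (b2.mono' h1 h2)⟩

theorem EnQ.anti (h : EnQ Q q L γ δ) (h1 : γ' ≤ γ) (h2 : δ' ≤ δ) : EnQ Q q L γ' δ' :=
  fun N Λ Γ a1 ε hε => by
    obtain ⟨J₀, h⟩ := h N Λ Γ a1 ε hε
    exact ⟨J₀, fun J hJ M _ P B Δ Δ' ι _ _ y d n D b1 b2 b3 b4 b5 =>
      h J hJ M P B Δ Δ' ι y d n D b1 (b2.mono' h1 h2) b3 b4 (b5.mono' h1 h2)⟩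

theorem univQ_of : ∃ C₂ : ℝ, 1 ≤ C₂ ∧ ∀ R : ℕ, ∃ C₃ : ℝ, 1 ≤ C₃ ∧ ∀ (Q : Cls) (q : Par)
    (Zσ Zε η δ : ℝ) (L : ℕ), q.R = R → 0 < δ → Crit L q (η / C₂) (δ / C₃) →
    MainQ Q q Zσ Zε L η δ → EnQ Q q L η δ → UnivQ Q q Zσ Zε L := by
  obtain ⟨C₂, hC₂, h⟩ := cor_reg
  refine ⟨C₂, hC₂, fun R => ?_⟩
  obtain ⟨C₃, hC₃, h⟩ := h R
  refine ⟨2 * C₃, by linarith, fun Q q Zσ Zε η δ L hR hδ hq h1 h2 =>
    ⟨η, δ / 2, δ / 2, by positivity, fun M _ R' => ?_, by rwa [add_halves], by rwa [add_halves]⟩⟩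
  have := h M R' q _ _ hR hq.ok hq.x hq.small
  rwa [mul_div_cancel₀ _ (by positivity), show C₃ * (δ / (2 * C₃)) = δ / 2 by field_simp] at this

theorem flow_parR (g : Geo) (L R j : ℕ) : g.flow L (parR R) 0 j = g.flow L par0 0 j := by
  induction j with
  | zero =>
    have e : g.Hin (parR R) = g.Hin par0 := by
      funext X n
      simp [Geo.Hin, parR, par0]
    have e2 : g.W0 (parR R) = g.W0 par0 := by
      rw [Geo.W0, Geo.W0, e]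
      rfl
    simp only [Geo.flow, Geo.init, e2]
    rfl
  | succ j ih => rw [Geo.flow, Geo.flow, ih]

theorem crit_parR (L R : ℕ) {η δ : ℝ} (hη : 0 ≤ η) (hδ : 0 ≤ δ) : Crit L (parR R) η δ := by
  obtain ⟨h1, -, ⟨ν, ζ, h3⟩, h4, h5⟩ := crit_par0 L η δ hη hδ
  refine ⟨⟨h1.pot, fun _ h => absurd rfl h, h1.x_lo, h1.x_hi, h1.Z_lo, h1.Z_hi⟩,
    by simpa [Par.Small, parR] using hδ, ⟨ν, ζ, fun j => ⟨(h3 j).1, fun M _ a b => ?_⟩⟩, h4, h5⟩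
  rw [flow_parR]
  exact (h3 j).2 M (le_trans (by change 16 * (0 + 1) ≤ 16 * (R + 1); omega) a) b

theorem ZwC_parR {M : ℕ} [NeZero M] (R : ℕ) (u : Cor M) (A : Gauge M)
    (Φ : (Tor M × Fin 2 → Bool) → ℝ) : ZwC (parR R) u A Φ = ZwC par0 u A Φ := by
  simp [ZwC, uint, parR, par0]

theorem MainQ.parR {R : ℕ} (h : MainQ Q (parR R) Zσ Zε L γ δ) (h1 : 0 ≤ γ) (h2 : 0 ≤ δ) :
    MainQ Q (parR R) 1 1 L γ δ := fun N Λ Γ H a1 a2 => by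
  obtain ⟨C, h⟩ := h N Λ Γ H a1 a2
  refine ⟨C, fun ε hε => ?_⟩
  obtain ⟨J₀, h⟩ := h (ε / 2) (half_pos hε)
  refine ⟨J₀, fun J hJ M _ P B Δ ι _ _ y d n K D b1 b2 b3 b4 b5 => ?_⟩
  obtain ⟨c1, c2⟩ := h J hJ M P B Δ ι y d n K D b1 b2 b3 b4 b5
  obtain ⟨c3, -⟩ := h J hJ M P B 0 ι y d n K D (Cor.ok_zero _) ⟨0, 0, (add_zero _).symm,
    ⟨0, fun _ _ => by simp, fun _ h => absurd rfl h, fun _ => by simpa using h1⟩,
    ⟨0, fun _ _ => by simp, fun _ h => absurd rfl h, fun _ => by simpa using h2⟩⟩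
    (fun _ _ _ => rfl) b4 b5
  have e : mixC (P144Z.parR R) 0 P B y d = mixC par0 0 P B y d := by
    simp only [mixC, enC, ZwC_parR]
  rw [e, abs_sub_comm] at c3
  refine ⟨?_, c2⟩
  rw [one_pow, one_pow, one_mul, one_mul]
  refine (abs_sub_le _ _ _).trans ((add_le_add c1 c3).trans (le_of_eq (by ring)))

open MN Mn in
theorem gen0 : ∃ L₀ : ℕ, ∀ L ≥ L₀, ∀ C₁ : ℝ, 1 ≤ C₁ → ∀ ε > 0, ∃ η₀ > 0, ∀ R : ℕ, ∃ δ₀ > 0,
    ∀ q : Par, q.R = R → Crit L q η₀ δ₀ → ∃ Zσ Zε : ℝ, |Zσ - 1| < ε ∧ |Zε - 1| < ε ∧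
      MainOK q Zσ Zε ∧ ∀ (Q : Cls) (c : ℝ), Q.Ok L C₁ c → MainQ Q q Zσ Zε L η₀ δ₀ := by
  obtain ⟨L₁, hL₁, hP⟩ := flowU
  refine ⟨max L₁ 64, fun L hL C₁ hC₁ ε hε => ?_⟩
  have hL1 : L₁ ≤ L := le_of_max_le_left hL
  have hL64 : 64 ≤ L := le_of_max_le_right hL
  obtain ⟨C, hC, η₁, hη₁, hP⟩ := hP L hL1
  obtain ⟨C', hC', η₂, hη₂, hD⟩ := W.FD.flowS (L := L) (by omega) hC₁
  set η := min (min η₁ η₂) (min ε 1 / (20000 * (C + C'))) with hη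
  have hm0 : 0 < min ε 1 := lt_min hε one_pos
  have hη0 : 0 < η := by positivity
  have hCη : (C + C') * η ≤ min ε 1 / 20000 := by
    calc (C + C') * η ≤ (C + C') * (min ε 1 / (20000 * (C + C'))) :=
          mul_le_mul_of_nonneg_left (min_le_right _ _) (by linarith)
      _ = _ := by field_simp
  have hm1 := min_le_left ε 1
  have hm2 := min_le_right ε 1
  have e1 : C * η ≤ (C + C') * η := by nlinarith
  have e2 : C' * η ≤ (C + C') * η := by nlinarith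
  refine ⟨η, hη0, fun R => ?_⟩
  obtain ⟨δ₁, hδ₁, hP⟩ := hP η hη0 ((min_le_left _ _).trans (min_le_left _ _)) R
  obtain ⟨δ₂, hδ₂, hD⟩ := hD η hη0 ((min_le_left _ _).trans (min_le_right _ _)) R
  refine ⟨min δ₁ δ₂, by positivity, fun q hR hq => ?_⟩
  subst hR
  obtain ⟨Z, z1, z2, z3, hP⟩ := hP q rfl (hq.mono le_rfl (min_le_left _ _))
  have hP' : Pl L q Z ((C + C') * η) C := fun N₀ Λ hΛ => by
    obtain ⟨w, hw, J₀, hP⟩ := hP N₀ Λ hΛ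
    refine ⟨w, hw, J₀, fun J hJ r h1 h2 => ?_⟩
    obtain ⟨M₀, hP⟩ := hP J hJ r h1 h2
    exact ⟨M₀, fun g a1 a2 a3 N a4 a5 => (hP g a1 a2 a3 N a4 a5).mono e1 le_rfl⟩
  obtain ⟨w, J₀, h⟩ := exists_ref hL64 hq.ok hP'
  obtain ⟨σ, hσ, hσ'⟩ := exists_sigma hL64 (w := w) (J₀ := J₀) fun i => h (J₀ + i) (by omega) _
    le_rfl (Nat.mul_le_mul_left _ (sc_mono (by omega) (by omega)))
  refine ⟨Real.exp σ, Z, ?_, by linarith, main_plane hL64 hq.ok hP' hσ', fun Q c hQ =>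
    IO.mainQ_of hL64 hq.ok (by positivity) (by have := abs_le.1 z1; linarith) hP' hσ' hQ
      fun Λ H hH => ?_⟩
  · have := Real.abs_exp_sub_one_le (x := σ) (by linarith)
    linarith
  obtain ⟨w, hw, b, hb, J₁, hD⟩ := hD q rfl (hq.mono le_rfl (min_le_right _ _)) Z z2 z3 Λ H hH
  refine ⟨w, hw, b, hb, J₁, fun g a1 a2 a3 u a4 a5 a6 => ?_⟩
  have H := hD g a1 a2 a3 u a4 a5 (a6.mono' le_rfl (min_le_right _ _))
  exact ⟨H.conv, H.conv0, fun j hj => FM.anch_le (H.early j hj) (by gcongr), H.early0, H.flow0,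
    H.last, H.size⟩

/-- Universality for every good class. -/
theorem genW : GenW := by
  obtain ⟨L₁, hG⟩ := gen0
  obtain ⟨L₂, hE⟩ := enGen
  obtain ⟨C₂, hC₂, hU⟩ := univQ_of
  refine ⟨max L₁ L₂, fun L hL C₁ hC₁ => ?_⟩
  obtain ⟨η₂, hη₂, hE⟩ := hE L (le_of_max_le_right hL) C₁ hC₁
  have key : ∀ ε > 0, ∃ η > 0, ∀ R : ℕ, ∃ δ > 0, ∀ q : Par, q.R = R → Crit L q η δ →
      ∃ Zσ Zε : ℝ, |Zσ - 1| < ε ∧ |Zε - 1| < ε ∧ MainOK q Zσ Zε ∧ ∀ (Q : Cls) (c : ℝ),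
        Q.Ok L C₁ c → MainQ Q q Zσ Zε L η δ ∧ EnQ Q q L η δ := fun ε hε => by
    obtain ⟨η₁, hη₁, hG⟩ := hG L (le_of_max_le_left hL) C₁ hC₁ ε hε
    refine ⟨min η₁ η₂, by positivity, fun R => ?_⟩
    obtain ⟨δ₁, hδ₁, hG⟩ := hG R
    obtain ⟨δ₂, hδ₂, hE⟩ := hE R
    refine ⟨min δ₁ δ₂, by positivity, fun q hR hq => ?_⟩
    obtain ⟨Zσ, Zε, z1, z2, z3, hG⟩ := hG q hR (hq.mono (min_le_left _ _) (min_le_left _ _))
    exact ⟨Zσ, Zε, z1, z2, z3, fun Q c hQ => ⟨(hG Q c hQ).anti (min_le_left _ _) (min_le_left _ _),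
      (hE q hR (hq.mono (min_le_right _ _) (min_le_right _ _)) Q c hQ).anti (min_le_right _ _)
        (min_le_right _ _)⟩⟩
  refine ⟨fun R Q c hQ => ?_, fun ε hε => ?_⟩
  · obtain ⟨η, hη, h⟩ := key 1 one_pos
    obtain ⟨δ, hδ, h⟩ := h R
    obtain ⟨C₃, hC₃, hU⟩ := hU R
    obtain ⟨Zσ, Zε, -, -, -, h⟩ := h _ rfl (crit_parR L R hη.le hδ.le)
    exact hU Q _ 1 1 η δ L rfl hδ (crit_parR L R (by positivity) (by positivity))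
      ((h Q c hQ).1.parR hη.le hδ.le) (h Q c hQ).2
  · obtain ⟨η, hη, h⟩ := key ε hε
    refine ⟨η / C₂, by positivity, fun R => ?_⟩
    obtain ⟨δ, hδ, h⟩ := h R
    obtain ⟨C₃, hC₃, hU⟩ := hU R
    refine ⟨δ / C₃, by positivity, fun q hR hq => ?_⟩
    obtain ⟨Zσ, Zε, z1, z2, z3, h⟩ :=
      h q hR (hq.mono (div_le_self hη.le hC₂) (div_le_self hδ.le hC₃))
    exact ⟨Zσ, Zε, z1, z2, z3, fun Q c hQ =>
      hU Q q Zσ Zε η δ L hR hδ hq (h Q c hQ).1 (h Q c hQ).2⟩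

end Vale.Agent.P144Z
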