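import Vale.Agent.P144E.Defs
import Vale.Agent.P144D.I.O.MainQ

/-!
# The mean energy in the bulk hardly depends on the correction
-/

namespace Vale.Agent.P144Z.IO

open Finset Matrix Geo
open Mn hiding Br Gd WW WW_eq br_good en_eq exc_sub mix_eq ok_bare ok_one ps_br ps_cf ps_wt see_en
  ss top_le
open MN hiding sep_ff sep_fs flat' br_good not_exc medium WW_zero large err ss_eq final

variable {g : Geo} {A' : Gauge g.M} {L n Λ r : ℕ} {Γ : ℝ} (D : g.Dom0 A' L n Λ r Γ)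
  {q : Par} {u u' : Cor g.M} {Z w a b h : ℝ}
include D

/-- The small sets do not see the corrections. -/
theorem cf_small (hL : 8 ≤ L) (hq : q.Ok) (hR : 16 * (q.R + 1) ≤ g.M) (hu : u.Ok) (hu' : u'.Ok)
    (ho : u.Off A') (ho' : u'.Off A') (k : g.K) {j : ℕ} (hj : j ≤ g.J) {U : Finset g.P}
    (hU : stein U ≤ r / 20) : cf (one g A' k) () ((one g A' k).csC L q u j U) =
      cf (one g A' k) () ((one g A' k).csC L q u' j U) := by
  have ok := ok_one D.ok D.w k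
  by_cases hk : (g.src k).y ∈ U
  swap
  · rw [cf_not_mem (g := one g A' k) (W.Geo.csC_mem ok hu L q j U).1 hk,
      cf_not_mem (g := one g A' k) (W.Geo.csC_mem ok hu' L q j U).1 hk]
  have h1 := sc_mono (L := L) (by omega) hj
  have h2 := D.lo
  have h3 := D.Mlo
  have h8 := eight_le_sc (L := L) (by omega) j
  have hM : 4 * r + 1 ≤ g.M := by omega
  have fl : ∀ X : Finset g.P, (∀ x ∈ X, tdist x (g.src k).y ≤ r) → ∀ x ∈ X, flux A' x = 1 :=
    fun X hX x hx => by rw [D.fl, D.sep.fs k x (hX x hx), ite_self]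
  have := W.Geo.ag_cs_srcC (g := one g A' k) (g' := one g A' k) (c := (g.src k).y)
    (c' := (g.src k).y) (T := r) hL ok ok hu' hu hq hR hR
    ⟨hM, hM, fun f _ => by rw [shf_self], ⟨fun _ => 1, fun _ => Or.inl rfl, fun x i _ _ => by
      rw [shf_self, one_mul, one_mul]⟩, fun X hX n' => by
        rw [image_shf, ho X (fl X hX), ho' X (fl X hX)]⟩ j (k := ()) (k' := ())
    ⟨(shf_self _ _).symm, rfl, rfl, rfl, rfl, fun _ _ => Iff.rfl⟩ (fun v hv => by
      rw [((D.ok.src k).en (D.on k)).1] at hv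
      have : zd v 0 ≤ 1 := by
        simp only [mem_insert, mem_singleton] at hv
        rcases hv with rfl | rfl
        · simp [zd]
        · unfold uz; split_ifs <;> simp [zd]
      simp only [min_self]
      omega) hk hk (by rw [tdist_self]; omega)
  rwa [image_shf] at this

open Classical in
/-- The large sets. -/
theorem cf_large (hL : 8 ≤ L) (hr : 80 ≤ r) (hu : u.Ok) (hw : 0 < w) (k : g.K)
    (F : (one g A' k).FlowD L q u Z w a b h) {j : ℕ} (hj : j ≤ g.J) :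
    w * sc L g.J * ∑ U ∈ univ.filter (fun U : Finset g.P => r / 20 + 1 ≤ stein U),
      |cf (one g A' k) () ((one g A' k).csC L q u j U)| ≤
      (8 * Λ * L + 1) ^ 2 * (a * 1536) * (1 / 2 ^ j * (1 / 4 ^ (g.J - j))) := by
  have ok := ok_one D.ok D.w k
  set x : ℝ := (L : ℝ) ^ (g.J - j) with hx
  have h8 := eight_le_sc (L := L) (by omega) j
  have hl : (0 : ℝ) < sc L j := by positivity
  have hβ : 0 < w * sc L j := by positivity
  have hx1 : 1 ≤ x := one_le_pow₀ (by exact_mod_cast (by omega : 1 ≤ L))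
  have nn : ∀ U, 0 ≤ if (one g A' k).Exc U then 0 else
      (one g A' k).ps (w * sc L j) U ((one g A' k).csC L q u j U) := fun U => by
    split_ifs
    exacts [le_rfl, ps_nonneg _]
  have ha : 0 ≤ a / 2 ^ j := G.anch_nonneg nn (F.early j hj)
  have hM : (g.M : ℝ) / sc L j + 1 ≤ (8 * Λ * L + 1) * (4 * x) := by
    have h1 : g.M ≤ 8 * Λ * L * L ^ (g.J - j) * sc L j := by
      calc g.M ≤ Λ * (8 * sc L (g.J + 1)) := D.Mhi.trans (Nat.mul_le_mul_left _ D.hi)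
        _ = _ := by rw [sc_eq (Nat.le_succ g.J), sc_eq hj]; simp; ring
    have h2 : (g.M : ℝ) / sc L j ≤ 8 * Λ * L * x := by
      rw [div_le_iff₀ hl, hx]
      exact_mod_cast h1
    have h3 : (0 : ℝ) ≤ 8 * Λ * L * x := by positivity
    linarith
  have h1 := Anch.large (by omega) (by positivity) nn (F.early j hj) (r / 20 + 1) (by omega)
  have h2 : w * sc L j * ∑ U ∈ univ.filter (fun U : Finset g.P => r / 20 + 1 ≤ stein U),
      |cf (one g A' k) () ((one g A' k).csC L q u j U)| ≤ ((g.M : ℝ) / sc L j + 1) ^ 2 *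
        Real.exp (-(2 * L * (r / 20 + 1 : ℕ) / sc L j)) * (a / 2 ^ j) := by
    refine le_trans ?_ h1
    rw [mul_sum]
    refine sum_le_sum fun U hU => ?_
    rw [if_neg fun hE => by
      obtain ⟨_, -, h4⟩ := exc_sub ok (fun _ => D.on k) hE
      have := (mem_filter.1 hU).2
      omega]
    exact ps_cf (g := one g A' k) D.w hβ (W.Geo.csC_mem ok hu L q j U).1 ()
  have h3 := gain (L := L) (by omega) hj D.lo 3
  have h4 : Real.exp (-(2 * L * (r / 20 + 1 : ℕ) / sc L j)) ≤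
      Real.exp (-(L * (r / 20 + 1 : ℕ) / sc L j)) := by
    rw [Real.exp_le_exp, neg_le_neg_iff, mul_assoc, mul_div_assoc 2]
    exact le_mul_of_one_le_left (by positivity) one_le_two
  have e : w * (sc L g.J : ℝ) = x * (w * sc L j) := by
    rw [sc_eq hj, hx]
    push_cast
    ring
  rw [e, mul_assoc x]
  refine (mul_le_mul (by linarith : x ≤ 4 * x) h2 (by positivity) (by positivity)).trans ?_
  calc _ ≤ 4 * x * (((8 * Λ * L + 1) * (4 * x)) ^ 2 *
        Real.exp (-(L * (r / 20 + 1 : ℕ) / sc L j)) * (a / 2 ^ j)) := by gcongr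
    _ = (8 * Λ * L + 1) ^ 2 * ((4 * x) ^ 3 *
        Real.exp (-(L * (r / 20 + 1 : ℕ) / sc L j))) * (a / 2 ^ j) := by ring
    _ ≤ (8 * Λ * L + 1) ^ 2 * (4 ^ 3 * (3 + 1 : ℕ).factorial * (1 / 4 ^ (g.J - j))) *
        (a / 2 ^ j) := by gcongr
    _ = _ := by
      norm_num [Nat.factorial]
      ring

open Classical in
theorem en_close (hL : 8 ≤ L) (hr : 80 ≤ r) (hq : q.Ok) (hR : 16 * (q.R + 1) ≤ g.M) (hu : u.Ok)
    (hu' : u'.Ok) (ho : u.Off A') (ho' : u'.Off A') (hw : 0 < w) (ha : 0 ≤ a) (hh : 0 < h)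
    (k : g.K) (F : (one g A' k).FlowD L q u Z w a b h) (F' : (one g A' k).FlowD L q u' Z w a b h)
    (H : (one g A' k).LastB (sc L g.J) h |Zw par0 A' 1|) {e : ℝ}
    (he : Real.exp 1 * (Real.exp (b / 2 ^ g.J) - 1) ≤ e) (he1 : e ≤ 1 / 2) :
    w * sc L g.J * |ZwC q u A' (g.sgK k) / ZwC q u A' 1 - ZwC q u' A' (g.sgK k) / ZwC q u' A' 1| ≤
      16 * e + (8 * Λ * L + 1) ^ 2 * (a * 6144) / 2 ^ g.J := by
  have h8 := eight_le_sc (L := L) (by omega) g.J
  have hβ : 0 < w * sc L g.J := by positivity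
  have hZ : q.Z ≠ 0 := by have := hq.Z_lo; positivity
  obtain ⟨t1, t2, -⟩ := tt_close D.ok D.w hu (by omega) hh hw k F D.ne H he he1
  obtain ⟨t3, t4, -⟩ := tt_close D.ok D.w hu' (by omega) hh hw k F' D.ne H he he1
  rw [en_eq D.ok k (D.on k) hZ F.conv t1, en_eq D.ok k (D.on k) hZ F'.conv t3]
  have s1 : w * sc L g.J * |cf (one g A' k) () (CC (one g A' k) L q u) -
      cf (one g A' k) () (CC (one g A' k) L q u')| ≤
      2 * ((8 * Λ * L + 1) ^ 2 * (a * 1536)) * (2 / 2 ^ g.J) := by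
    simp only [CC, map_sum, ← sum_sub_distrib]
    refine (mul_le_mul_of_nonneg_left (abs_sum_le_sum_abs _ _) hβ.le).trans ?_
    refine le_trans ?_ (mul_le_mul_of_nonneg_left (geo_head g.J) (by positivity))
    rw [mul_sum, mul_sum]
    refine sum_le_sum fun j hj => ?_
    have hj' : j ≤ g.J := by have := mem_range.1 hj; change j < g.J + 1 at this; omega
    rw [← sum_filter_of_ne (p := fun U : Finset g.P => r / 20 + 1 ≤ stein U) fun U _ hne => by
      by_contra hU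
      exact hne (sub_eq_zero.2 (cf_small D hL hq hR hu hu' ho ho' k hj' (by omega)))]
    refine (mul_le_mul_of_nonneg_left ((abs_sum_le_sum_abs _ _).trans
      (sum_le_sum fun U _ => abs_sub _ _)) hβ.le).trans ?_
    rw [sum_add_distrib, mul_add]
    have b1 := cf_large D hL hr hu hw k F hj'
    have b2 := cf_large D hL hr hu' hw k F' hj'
    linarith
  generalize cf (one g A' k) () (CC (one g A' k) L q u) = c₁ at *
  generalize cf (one g A' k) () (CC (one g A' k) L q u') = c₂ at *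
  have s2 : |c₁ + tt g A' L q u k - (c₂ + tt g A' L q u' k)| ≤ |c₁ - c₂| +
      (|tt g A' L q u k - Z * tt g A' L par0 0 k| + |tt g A' L q u' k - Z * tt g A' L par0 0 k|) :=
    le_trans (le_of_eq (congrArg _ (by ring)))
      ((abs_add_le _ _).trans (add_le_add le_rfl (abs_sub _ _)))
  refine (mul_le_mul_of_nonneg_left s2 hβ.le).trans ?_
  have e : 2 * ((8 * Λ * L + 1 : ℝ) ^ 2 * (a * 1536)) * (2 / 2 ^ g.J) =
      (8 * Λ * L + 1) ^ 2 * (a * 6144) / 2 ^ g.J := by ring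
  linarith

omit D in
theorem enQ_of {C₁ c η δ : ℝ} {Q : Cls} (hL : 64 ≤ L) (hq : q.Ok) (ha : 0 ≤ a) (hQ : Q.Ok L C₁ c)
    (hD : ∀ (Λ : ℕ) (h : ℝ), 0 < h → ∃ w > 0, ∃ b > 0, ∃ J₀ : ℕ, ∀ g : Geo, J₀ ≤ g.J →
      g.PreS L q.R C₁ → g.M ≤ Λ * sc L g.J → ∀ u : Cor g.M, u.Ok → u.Off g.A → u.Sm q.R η δ →
        g.FlowD L q u Z w a b h) : EnQ Q q L η δ := by
  intro N Λ Γ hΓ ε hε
  obtain ⟨Cg, hCg, hg⟩ := LM.lastB_gap
  have hh : Γ ≤ Cg * Γ := le_mul_of_one_le_left (by linarith) hCg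
  obtain ⟨w, hw, b, hb, J₁, hD⟩ := hD Λ (Cg * Γ) (by linarith)
  obtain ⟨J₂, hJ₂⟩ := small_e 16 (Real.exp 1) b ((8 * Λ * L + 1) ^ 2 * (a * 6144))
    (ε := min 1 (w * ε)) (by positivity)
  refine ⟨max J₁ (max J₂ (q.R + 1)), fun J hJ M _ P B Δ Δ' ι _ _ y d n D h1 h2 h3 h4 h5 h6 k => ?_⟩
  simp only [ge_iff_le, max_le_iff] at hJ
  obtain ⟨k1, k2, k3⟩ := hJ
  have D₀ := dom0_of (by omega) D
  have l1 := D.lo
  have l2 : J < sc L J := by
    have := Nat.lt_pow_self (n := J) (show 1 < L by omega)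
    unfold sc
    omega
  have l3 := sc_mono (L := L) (by omega) (show 1 ≤ J by omega)
  have l4 : sc L 1 = 8 * L := by simp [sc]
  have n1 : ∀ f, flux P f ≠ -1 := fun f e => by
    have e' := (D₀.fl f).symm.trans e
    split_ifs at e' with h
    · norm_num at e'
    · exact h e'
  have ok := ok_one D₀.ok D₀.w k
  have sp : (one (geoD M (P * B) y d J) P k).SepW (8 * sc L J) :=
    ⟨fun f e => absurd e (n1 f), fun _ f hf => (D₀.fl f).trans (by
      rw [D₀.sep.fs k f hf, ite_self]), fun _ _ e => absurd rfl e⟩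
  have m1 : 16 * sc L J ≤ M := by omega
  have m2 : 16 * (q.R + 1) ≤ M := by omega
  have F := hD (one (geoD M (P * B) y d J) P k) k1 ⟨ok, fun _ => rfl, m1, m2, sp,
    (hQ _ ok (fun _ => rfl) m1 sp D.bd0).1⟩ D.hi
  obtain ⟨e1, e2⟩ := le_min_iff.1 (hJ₂ J k2)
  have e3 : 0 ≤ (8 * Λ * L + 1 : ℝ) ^ 2 * (a * 6144) / 2 ^ J := by positivity
  have := en_close D₀ (by omega) (by omega) hq m2 h1 h4 h3 h6 hw ha (by linarith) k
    (F Δ h1 h3 h2) (F Δ' h4 h6 h5) (hg _ D₀.w _ (by change 8 ≤ sc L J; omega) Γ hΓ D.gap _ le_rfl)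
    le_rfl (by change _ * (Real.exp (b / 2 ^ J) - 1) ≤ _; linarith)
  rw [mul_assoc] at this
  exact le_of_mul_le_mul_left (this.trans e2) hw

end Vale.Agent.P144Z.IO

namespace Vale.Agent.P144Z

theorem Cor.Sm.mono' {M : ℕ} [NeZero M] {u : Cor M} {R : ℕ} {γ γ' δ δ' : ℝ} (h : u.Sm R γ δ)
    (h1 : γ ≤ γ') (h2 : δ ≤ δ') : u.Sm R γ' δ' := by
  obtain ⟨c₁, c₂, e, ⟨b₁, a1, a2, a3⟩, b₂, a4, a5, a6⟩ := h
  exact ⟨c₁, c₂, e, ⟨b₁, a1, a2, fun x => (a3 x).trans h1⟩, b₂, a4, a5, fun x => (a6 x).trans h2⟩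

/-- The mean energy, for every good class. -/
theorem enGen : EnGen := by
  obtain ⟨L₁, hL₁, hP⟩ := flowU
  refine ⟨max L₁ 64, fun L hL C₁ hC₁ => ?_⟩
  have hL1 : L₁ ≤ L := le_of_max_le_left hL
  obtain ⟨C, hC, η₁, hη₁, hP⟩ := hP L hL1
  obtain ⟨C', hC', η₂, hη₂, hD⟩ := W.FD.flowS (L := L) (by omega) hC₁
  have hη : 0 < min η₁ η₂ := by positivity
  refine ⟨min η₁ η₂, hη, fun R => ?_⟩
  obtain ⟨δ₁, hδ₁, hP⟩ := hP _ hη (min_le_left _ _) R
  obtain ⟨δ₂, hδ₂, hD⟩ := hD _ hη (min_le_right _ _) R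
  refine ⟨min δ₁ δ₂, by positivity, fun q hR hq Q c hQ => ?_⟩
  subst hR
  obtain ⟨Z, -, z2, z3, -⟩ := hP q rfl (hq.mono le_rfl (min_le_left _ _))
  refine IO.enQ_of (Z := Z) (a := C' * min η₁ η₂) (le_of_max_le_right hL) hq.ok (by positivity) hQ
    fun Λ h hh => ?_
  obtain ⟨w, hw, b, hb, J₀, hD⟩ := hD q rfl (hq.mono le_rfl (min_le_right _ _)) Z z2 z3 Λ h hh
  exact ⟨w, hw, b, hb, J₀, fun g a1 a2 a3 u a4 a5 a6 =>
    hD g a1 a2 a3 u a4 a5 (a6.mono' le_rfl (min_le_right _ _))⟩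

end Vale.Agent.P144Z
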