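import Vale.Agent.P144E.Rg.Ks
import Vale.Agent.P144D.FD.Main

/-!
# Steps with a rough boundary: the step below the distance of the defects
-/

namespace Vale.Agent.P144Z.W.Geo.R8

open Finset Matrix Vale.Agent.P144Z.Geo Vale.Agent.P144Z.R8 Filter Topology

set_option maxHeartbeats 600000 in
/-- The hypotheses of the abstract step below the distance of the defects. -/
theorem hyp_domW : ∃ C : ℝ, 1 ≤ C ∧ ∀ (g : Geo) (L ℓ j : ℕ) (h h' δ c : ℝ), IsW g.A →
    (∀ k, (g.src k).on = true) → j < g.J → 8 ≤ ℓ → 16 * (L * ℓ) ≤ g.M → g.SepW (8 * (L * ℓ)) →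
    (∀ z, (∃ f, tdist f z ≤ L * ℓ ∧ |flux g.A f| ≠ 1) →
      RN.Shr g.A ℓ (L * ℓ) z (c * √((ℓ : ℝ) / (L * ℓ : ℕ)))) → 1 ≤ c →
    60 ≤ L → 576 * C * c ^ 2 ≤ L → 0 < h → h ≤ h' → h' ≤ 2 * h → 0 < δ → ∀ s : g.St, g.Wf s →
    (∀ U, ∀ F ∈ g.sub U, g.pn ℓ (h / 2) (δ * ℓ / h ^ 2) U
      (evG (g.exM (covP (Dm g.A) ℓ (L * ℓ))) F) ≤ g.pn ℓ h (δ * ℓ / h ^ 2) U F) →
    Hyp g L ℓ j h (δ * ℓ / h ^ 2) h' (δ * (L * ℓ : ℕ) / h' ^ 2) (4 * C * L)
      (ksW g L ℓ (2 * C * c * √((L : ℝ)⁻¹))) (20 * C ^ 2) s (g.srcSt s.z)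
      (g.srcSt (g.step j ℓ (L * ℓ) 0 s).z) := by
  classical
  obtain ⟨Cf, hCf, Hf⟩ := pn_flux
  obtain ⟨Cs, hCs, Hs⟩ := pn_src
  obtain ⟨Cx, hCx, Hx⟩ := ext_le
  obtain ⟨Cl, hCl, Hl⟩ := pn_local
  refine ⟨Cf + Cs + Cx + Cl, by linarith, fun g L ℓ j h h' δ c hA hon hj hl hM hSW hB hc
    hL hLC' hh hhh hh2 hδ s hs hE => ?_⟩
  set C := Cf + Cs + Cx + Cl with hC
  have hS := sepW_sep hSW
  have hc2 : 1 ≤ c ^ 2 := one_le_pow₀ hc
  have hC1 : 1 ≤ C := by linarith
  have hCc : C ≤ C * c ^ 2 := le_mul_of_one_le_right (by linarith) hc2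
  have hCc' : c ^ 2 ≤ C * c ^ 2 := le_mul_of_one_le_left (by linarith) hC1
  have hCc1 : C ≤ C * c := le_mul_of_one_le_right (by linarith) hc
  have hLC : 2 * C ≤ L := by linarith
  have hL' : (60 : ℝ) ≤ L := by exact_mod_cast hL
  have hl0 : (0 : ℝ) < ℓ := by positivity
  have hL0 : (0 : ℝ) < L := by positivity
  have hh' : 0 < h' := by linarith
  have h60 : 60 * ℓ ≤ L * ℓ := Nat.mul_le_mul_right ℓ hL
  have hcast : ((L * ℓ : ℕ) : ℝ) = L * ℓ := Nat.cast_mul _ _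
  have a : Ad g ℓ h (δ * ℓ / h ^ 2) := ⟨hA, by omega, hh, by positivity⟩
  have a' : Ad g (L * ℓ) h' (δ * (L * ℓ : ℕ) / h' ^ 2) := ⟨hA, by omega, hh', by positivity⟩
  set β := δ * ℓ / h ^ 2 with hβ
  set β' := δ * (L * ℓ : ℕ) / h' ^ 2 with hβ'
  have hrat : β' / β = L * (h / h') ^ 2 := by rw [hβ, hβ', hcast]; field_simp
  have hq1 : (h / h') ^ 2 ≤ 1 := pow_le_one₀ (by positivity) ((div_le_one hh').2 hhh)
  have hq2 : (1 / 2) ^ 2 ≤ (h / h') ^ 2 :=
    pow_le_pow_left₀ (by norm_num) (by rw [le_div_iff₀ hh']; linarith) 2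
  have hr1 : β' / β ≤ L := by rw [hrat]; exact mul_le_of_le_one_right hL0.le hq1
  have hr2 : β ≤ β' := by rw [← one_le_div a.b, hrat]; nlinarith
  have hsq : √((ℓ : ℝ) / (L * ℓ : ℕ)) = √((L : ℝ)⁻¹) := by rw [hcast]; congr 1; field_simp
  have hsq0 := Real.sqrt_nonneg ((L : ℝ)⁻¹)
  have hfl := fun (k : ℝ) (hk : 0 < k) (hk' : h' ≤ 4 * k) (U : Finset g.P) (F : g.E)
    (hF : F ∈ g.sub U) => Hf g hA ℓ (L * ℓ) k h' β c hl hc
    (by rw [hcast]; exact mul_le_mul_of_nonneg_right (by nlinarith) hl0.le) hM hk hh' hk' a.b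
    (sepW_mono hSW (by omega)).ff U F hF fun z _ => by
      by_cases h1 : ∀ f, tdist f z ≤ L * ℓ → |flux g.A f| = 1
      · exact Or.inl h1
      · push Not at h1
        exact Or.inr (hB z h1)
  have hsmall : ∀ k : ℝ, 0 < k → h' ≤ 4 * k → ∀ U, stein U ≤ ℓ → ∀ F ∈ g.sub U, g.noF F = 0 →
      g.noB F = F → g.pn (L * ℓ) h' β' U F ≤
        ksW g L ℓ (2 * C * c * √((L : ℝ)⁻¹)) U * g.pn ℓ k β U F := by
    intro k hk hk' U hU F hF h0 h1
    have h2 := pn_noB_eq hA a'.l hh' a.b hF a'.b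
    rw [h1] at h2
    rw [h2]
    refine (adm_ksW (by positivity) U).2 k h' β hk hh' hk' a.b F hF h0 ?_
    refine ((hfl k hk hk' U F hF).2 hU h0).trans (mul_le_mul_of_nonneg_right ?_ (pn_nonneg _ _))
    rw [hsq]
    exact mul_le_mul_of_nonneg_right (by nlinarith) hsq0
  have huniq : ∀ U, stein U ≤ ℓ → ∀ k, (g.src k).y ∈ U → ∀ k', (g.src k').y ∈ U → k' = k :=
    fun U hU k hk k' hk' => sep_eq hS (by have := tdist_le_stein hk' hk; omega)
  have hrem : ∀ U, g.rem ℓ (L * ℓ) (g.srcSt s.z) U = 0 :=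
    rem_src hA (by omega) (by omega) (sep_mono hS (by omega)) s.z
  exact
    { a := a, a' := a', hL := by omega, hl := hl, hM := hM, hs := hs, hs' := (wf_srcSt _).1
      hf := (wf_srcSt _).2
      tK := fun X => by
        simp only [Geo.step, hrem, xtr_zero, sub_self, sum_const_zero]
        rfl
      tv := fun _ => rfl
      tz := fun k => (sub_self _).trans (sub_self _).symm
      kc0 := by positivity
      ks0 := fun U => (adm_ksW (by positivity) U).1
      ke0 := by positivity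
      hE := hE
      T1 := fun U F hF => by
        refine (pn_weight hA a'.l hh' a.b hF hr2).trans ?_
        have h1 := card_src_le (r := 2 * (L * ℓ)) (by omega) (sep_mono hS (by omega)) U
        have h2 : (1 : ℝ) + 2 * stein U / (2 * (L * ℓ) : ℕ) = 1 + (stein U : ℝ) / ℓ / L := by
          push_cast; field_simp
        rw [h2] at h1
        have h3 : Real.log (4 * L) ≤ L / 2 := by
          have b1 := Real.log_le_sub_one_of_pos (by norm_num : (0 : ℝ) < 16)
          have b2 := Real.log_le_sub_one_of_pos (by positivity : (0 : ℝ) < L / 4)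
          rw [show (4 : ℝ) * L = 16 * (L / 4) by ring, Real.log_mul (by norm_num) (by positivity)]
          linarith
        have h4 : 0 ≤ Real.log (4 * L) := Real.log_nonneg (by linarith)
        have h5 : 0 ≤ (stein U : ℝ) / ℓ / L := by positivity
        have h6 : (4 * β' / β) ^ (univ.filter fun k => (g.src k).y ∈ U).card ≤
            4 * L * Real.exp ((stein U : ℝ) / ℓ / 2) := by
          refine (pow_le_pow_left₀ (by have := a.b; have := a'.b; positivity)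
            (by rw [mul_div_assoc]; linarith : 4 * β' / β ≤ 4 * L) _).trans ?_
          rw [← Real.exp_log (by positivity : (0 : ℝ) < 4 * L), ← Real.exp_nat_mul, ← Real.exp_add,
            Real.exp_le_exp]
          have b1 := mul_le_mul_of_nonneg_right h1 h4
          have b2 := mul_le_mul_of_nonneg_left h3 h5
          have b3 : (stein U : ℝ) / ℓ / L * (L / 2) = (stein U : ℝ) / ℓ / 2 := by field_simp
          linarith
        have h7 : Cf * Real.exp (Cf * stein U / (L * ℓ : ℕ)) ≤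
            C * Real.exp ((stein U : ℝ) / ℓ / 2) := by
          refine mul_le_mul (by linarith) (Real.exp_le_exp.2 ?_) (Real.exp_pos _).le (by linarith)
          have b1 : Cf * stein U / (L * ℓ : ℕ) = (stein U : ℝ) / ℓ / L * Cf := by
            rw [hcast]; field_simp
          have b2 := mul_le_mul_of_nonneg_left (by linarith : Cf ≤ L / 2) h5
          have b3 : (stein U : ℝ) / ℓ / L * (L / 2) = (stein U : ℝ) / ℓ / 2 := by field_simp
          linarith
        refine (mul_le_mul h6 ((hfl (h / 2) a.half.h (by linarith) U F hF).1.trans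
          (mul_le_mul_of_nonneg_right h7 (pn_nonneg _ _))) (pn_nonneg _ _) (by positivity)).trans
          (le_of_eq ?_)
        rw [show Real.exp ((stein U : ℝ) / ℓ) =
          Real.exp ((stein U : ℝ) / ℓ / 2) * Real.exp ((stein U : ℝ) / ℓ / 2) by
            rw [← Real.exp_add, add_halves]]
        ring
      T2 := fun U hU _ F hF h0 h1 => by
        by_cases hX : g.Xtr ℓ (L * ℓ) U
        · have h2 := h1 (xtr_nd hX (by omega) (by omega))
          by_cases h3 : ∃ k, (g.src k).y ∈ U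
          · obtain ⟨k, hk⟩ := h3
            rw [xb_eq ⟨hX, hk, hon k, hj⟩ (huniq U hU k hk)]
            refine (Hs g hA ℓ (L * ℓ) (h / 2) h' β β' hl (by
              rw [hcast]; exact mul_le_mul_of_nonneg_right (by linarith) hl0.le) hM a.half.h hh'
              (by linarith) a.b a'.b U hX k hk (huniq U hU k hk) F hF h2 h0).trans
              (mul_le_mul_of_nonneg_right ?_ (pn_nonneg _ _))
            have b1 : ((ℓ : ℝ) / (L * ℓ : ℕ)) ^ 2 = (L : ℝ)⁻¹ * (L : ℝ)⁻¹ := by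
              rw [hcast]; field_simp
            have b2 : (L : ℝ)⁻¹ ≤ √((L : ℝ)⁻¹) := by
              rw [Real.le_sqrt (by positivity) (by positivity), sq]
              exact mul_le_of_le_one_left (by positivity) (inv_le_one_of_one_le₀ (by linarith))
            have b3 : β' / β * (L : ℝ)⁻¹ ≤ 1 := by rw [← div_eq_mul_inv, div_le_one hL0]; exact hr1
            have b4 : β' / β * ((L : ℝ)⁻¹ * (L : ℝ)⁻¹) ≤ √((L : ℝ)⁻¹) := by
              rw [← mul_assoc]
              exact (mul_le_of_le_one_left (by positivity) b3).trans b2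
            rw [b1, mul_assoc, ksW, if_pos ⟨k, hk⟩]
            exact mul_le_mul (by linarith) b4 (by have := a.b; have := a'.b; positivity)
              (by linarith)
          · rw [noB_of_no_src hF (not_exists.1 h3)] at h2
            rw [xb_eq_zero fun k hk => h3 ⟨k, hk.2.1⟩, h2, sub_self, a'.zero, a.half.zero, mul_zero]
        · rw [xb_eq_zero fun k hk => hX hk.1, sub_zero]
          have h2 : ¬ ∀ x ∈ U, Flat g.A x (L * ℓ) := fun h => hX ⟨hU, h⟩
          push Not at h2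
          obtain ⟨x, hx, hfx⟩ := h2
          refine (a'.mono (G.subset_plus U) hF).trans (hsmall _ a.half.h (by linarith) U hU F hF h0
            (noB_of_no_src hF fun k hk => hfx fun f hf => hSW.fs k f ?_))
          have b2 := tdist_le_stein hx hk
          have b3 := tdist_triangle f x (g.src k).y
          omega
      T3 := fun X hX _ => by
        have hm := sub_mem (hs.car_mem X) ((wf_srcSt s.z).1.car_mem X)
        have h1 : g.noB (s.car X - (g.srcSt s.z).car X) = s.car X - (g.srcSt s.z).car X := by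
          rw [car_src, St.car, add_sub_cancel_right, map_sum]
          exact sum_congr rfl fun x _ => hs.vnoB x
        refine hsmall h hh (by linarith) X hX _ (dp_mem hm X)
          (noF_dp (by rw [map_sub, hs.noF_car, (wf_srcSt s.z).1.noF_car, sub_self])) ?_
        unfold Geo.dp
        split_ifs
        · rw [h1, sub_self, map_zero]
        · exact h1
      T4 := fun U hU x hx F hF =>
        (Hx g L ℓ h β h' β' a a' (by omega) hl hM hh2 U hU x hx F hF).1.trans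
          (mul_le_mul_of_nonneg_right (by nlinarith) (pn_nonneg _ _))
      T5 := fun U F hF => by
        by_cases h1 : ∃ k, g.XtrB j ℓ (L * ℓ) U k
        · obtain ⟨k, hk⟩ := h1
          rw [xb_eq hk (huniq U hk.1.1 k hk.2.1), a'.smul]
          have b1 := (Hx g L ℓ h β h' β' a a' (by omega) hl hM hh2 U hk.1 _ hk.2.1 F hF).2 k rfl
          have b2 := (a'.mono (star_subset_plus hk.2.1) (bE_mem k)).trans
            ((Hl g hA (L * ℓ) h' β' (by omega) (by omega) hh' a'.b _ (hk.1.2 _ hk.2.1)).2.2.2 k rfl)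
          have b3 : Cl * β' * h' ^ 2 / (L * ℓ : ℕ) = Cl * δ := by rw [hβ', hcast]; field_simp
          have b4 : β * (h / 2) ^ 2 = δ / 4 * ℓ := by rw [hβ]; field_simp; norm_num
          rw [b3] at b2
          rw [b4] at b1
          have b5 : δ / 4 * |g.zt k F| ≤ Cx * g.pn ℓ (h / 2) β U F :=
            le_of_mul_le_mul_left (by linarith) hl0
          have b6 := mul_le_mul_of_nonneg_left b2 (abs_nonneg (g.zt k F))
          have b7 := mul_le_mul_of_nonneg_left b5 (by linarith : 0 ≤ 4 * Cl)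
          have b8 := mul_le_mul_of_nonneg_right (by nlinarith : 4 * Cl * Cx ≤ 20 * C ^ 2)
            (pn_nonneg (ℓ := ℓ) (h := h / 2) (β := β) U F)
          linarith
        · rw [xb_eq_zero (not_exists.1 h1), a'.zero]
          exact mul_nonneg (by positivity) (pn_nonneg _ _) }

set_option maxHeartbeats 600000 in
/-- The step below the distance of the defects. -/
theorem step_domW : ∃ C₀ : ℝ, 1 ≤ C₀ ∧ ∃ ε₀ > (0 : ℝ), ∃ L₀ : ℕ, ∀ L ≥ L₀, ∃ C : ℝ, 1 ≤ C ∧
    ∀ g : Geo, IsW g.A →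
    (∀ k, (g.src k).on = true) → ∀ j ℓ : ℕ, j < g.J → 8 ≤ ℓ → 16 * (L * ℓ) ≤ g.M →
    g.SepW (8 * (L * ℓ)) → ∀ (c κ σ : ℝ) (n₂ : ℕ), BdW g.A ℓ (L * ℓ) 8 c κ σ n₂ → 1 ≤ c →
    c ^ 2 ≤ ε₀ * L →
    0 < κ → 8 * κ ≤ 1 → ∀ h h' δ : ℝ, (L : ℝ) ^ 2 ≤ h → h ≤ h' → h' ≤ 2 * h → 0 < δ → C * δ ≤ 1 →
    ∀ s : g.St, g.Wf s → (∀ k, |s.z k| ≤ 2) → ∀ D b : ℝ, D ≤ δ → b ≤ δ →
    Anch ℓ L (g.df ℓ h (δ * ℓ / h ^ 2) s (g.srcSt s.z)) D → Anch ℓ L (g.bf ℓ h s) b →
      g.ExpId (covP (Dm g.A) ℓ (L * ℓ)) s ∧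
      Anch (L * ℓ) L (g.df (L * ℓ) h' (δ * (L * ℓ : ℕ) / h' ^ 2) (g.step j ℓ (L * ℓ) 0 s)
        (g.srcSt (g.step j ℓ (L * ℓ) 0 s).z)) ((1 / 4 + C₀ * bdlW L 8 c κ σ n₂) * D + C * b) ∧
      (∀ k, δ * |(g.step j ℓ (L * ℓ) 0 s).z k - s.z k| ≤ C * (D + b)) ∧
      Anch (L * ℓ) (2 * L) (fun U => g.pn ℓ (h / 2) (δ * ℓ / h ^ 2) U
        (g.intg ℓ (L * ℓ) s U - g.intg ℓ (L * ℓ) (g.srcSt s.z) U)) (C * (D + b)) := by
  classical
  obtain ⟨L₁, hP⟩ := cl_P
  obtain ⟨Ch, hCh, hH⟩ := hyp_domW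
  obtain ⟨Cd, hCd, hd⟩ := df_srcSt
  obtain ⟨Cx, hCx, hX⟩ := ext_le
  have he6 : 1 ≤ Real.exp 6 := Real.one_le_exp (by norm_num)
  set e₀ := 1 / (21632 * Real.exp 6 * Ch) with he₀
  have he0 : 0 < e₀ := by positivity
  have he1 : 21632 * Real.exp 6 * Ch * e₀ = 1 := by rw [he₀]; field_simp
  have he2 : 576 * Ch * e₀ ≤ 1 := by nlinarith [mul_pos (by linarith : 0 < Ch) he0]
  have he3 : e₀ ≤ 1 := by nlinarith
  refine ⟨40000 * Real.exp 6, by linarith, e₀ ^ 2, by positivity, ?_⟩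
  obtain ⟨L₂, hL₂⟩ := eventually_atTop.1 (ev_exp (4 * (800 * (4 * Ch))))
  refine ⟨max (max L₁ L₂) 60, fun L hL => ?_⟩
  obtain ⟨Cc, hCc, hP⟩ := hP L (le_of_max_le_left (le_of_max_le_left hL))
  have hE1 := hL₂ L (le_of_max_le_right (le_of_max_le_left hL))
  have hL60 : 60 ≤ L := le_of_max_le_right hL
  have hL60' : (60 : ℝ) ≤ L := by exact_mod_cast hL60
  set A := 1200 * Real.exp 6 * (4 * Ch * L + 3 * (20 * Ch ^ 2)) with hA
  set B := 2 + 2 * (Cd * Real.exp L) with hB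
  have hA0 : 0 ≤ A := by positivity
  have hB0 : 1 ≤ B := by have : 0 ≤ Cd * Real.exp L := by positivity
                         linarith
  have h1 : 0 ≤ A * Cc * B := by positivity
  have h2 : 0 ≤ A * L ^ 2 := by positivity
  have h3 : Cc ≤ Cc * B := le_mul_of_one_le_right (by linarith) hB0
  have h4 : 0 ≤ 4 * Cx * (2 * Cc + 1) := by positivity
  refine ⟨8 * (A * Cc * B) + A * L ^ 2 + Cc * B + 4 * Cx * (2 * Cc + 1) + 1, by linarith,
    fun g hA' hon j ℓ hj hl hM hSW c κ σ n₂ hBd hc hcL hκ hκ1 h h' δ hh hhh hh2 hδ hCδ s hs hz D b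
      hD hb aD ab => ?_⟩
  have hE3 : 576 * Ch * c ^ 2 ≤ L := by
    have b1 : 576 * Ch * e₀ * e₀ ≤ 1 := mul_le_one₀ he2 he0.le he3
    have b2 := mul_le_mul_of_nonneg_left hcL (by linarith : 0 ≤ 576 * Ch)
    have b3 := mul_le_mul_of_nonneg_right b1 (by linarith : (0 : ℝ) ≤ L)
    linarith
  have hE4 : c * √((L : ℝ)⁻¹) ≤ e₀ := by
    refine (sq_le_sq₀ (by positivity) he0.le).1 ?_
    rw [mul_pow, Real.sq_sqrt (by positivity), ← div_eq_mul_inv, div_le_iff₀ (by linarith)]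
    exact hcL
  have hh0 : 0 < h := by nlinarith
  have hS := sepW_sep hSW
  have hl0 : (0 : ℝ) < ℓ := by positivity
  have a : Ad g ℓ h (δ * ℓ / h ^ 2) := ⟨hA', by omega, hh0, by positivity⟩
  have h60 : 60 * ℓ ≤ L * ℓ := Nat.mul_le_mul_right ℓ hL60
  have hD0 := G.anch_nonneg (df_nonneg _ _) aD
  have hb0 := G.anch_nonneg (bf_nonneg s) ab
  have ae := hd L g hA' ℓ hl (by omega) (sepW_mono hSW (by omega)) h δ hh0 hδ _ (wf_srcSt s.z).1 s.z 0
    2 0 zero_le_two (fun k => by rw [Pi.zero_apply, sub_zero]; exact hz k) (fun z => by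
      simp only [Geo.df, sub_self, dp_zero, a.zero, add_zero, zero_mul, sum_const_zero, le_refl])
  rw [zero_add] at ae
  have hε : D + b + Cd * Real.exp L * δ * 2 ≤ B * δ := by rw [hB]; linarith
  obtain ⟨hE', hP⟩ := hP g ℓ h _ a hl hh
  have h5 := mul_le_mul_of_nonneg_left hε (by linarith : 0 ≤ Cc)
  have h6 := mul_le_mul_of_nonneg_left hε (by positivity : 0 ≤ A * Cc)
  have h7 := mul_nonneg h1 hδ.le
  have h8 := mul_nonneg h2 hδ.le
  have h9 := mul_nonneg h4 hδ.le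
  have h10 := mul_nonneg (by linarith : 0 ≤ Cc * B) hδ.le
  obtain ⟨c1, c2, c3⟩ := hP s _ hs (wf_srcSt s.z).1 (wf_srcSt s.z).2 D b _ (by linarith) aD ab ae
  have H := hH g L ℓ j h h' δ c hA' hon hj hl hM hSW hBd.sch hc hL60 hE3 hh0 hhh hh2 hδ s hs hE'
  refine ⟨c1, anch_mono (H.core (sum_ksW hA' hl (by omega) hM (sepW_mono hSW (by omega)) hBd
    (by linarith) (by nlinarith [sq_nonneg c]) hκ hκ1 (by positivity) (df_nonneg _ _) aD) aD ab c2)
    (fun _ => le_rfl) ?_, fun k => ?_, anch_mono c3 (fun _ => le_rfl)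
    (mul_le_mul_of_nonneg_right (by linarith) (by linarith))⟩
  · have e2 := mul_le_mul_of_nonneg_left hE4 (by positivity : 0 ≤ Real.exp 6 * Ch)
    have e3 : 4 * Real.exp 6 * (169 * (2 * Ch * c * √((L : ℝ)⁻¹))) +
        800 * (4 * Ch * L) * L ^ 2 * Real.exp (2 - L) ≤ 1 / 8 := by
      linarith
    have e4 := mul_le_mul_of_nonneg_right e3 hD0
    have e5 : A * Cc * (D + b + Cd * Real.exp L * δ * 2) ≤ 1 / 8 := by linarith
    have e6 := mul_le_mul_of_nonneg_right e5 (add_nonneg hD0 hb0)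
    have e7 := mul_nonneg (by linarith : 0 ≤ 8 * (A * Cc * B) + Cc * B + 4 * Cx * (2 * Cc + 1)) hb0
    linarith
  · have b1 : (g.step j ℓ (L * ℓ) 0 s).z k - s.z k =
        ∑ U ∈ univ.filter (fun U => g.XtrB j ℓ (L * ℓ) U k), g.zt k (g.rem ℓ (L * ℓ) s U) := by
      simp only [Geo.step, add_sub_cancel_left]
    have b2 := (anch_H a hs (wf_srcSt s.z).1 (wf_srcSt s.z).2 aD ab ae).2.2
    have b3 := sum_mem_le (by positivity) (fun _ => pn_nonneg _ _) c3 (g.src k).y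
      (univ.filter fun U => g.XtrB j ℓ (L * ℓ) U k) fun U hU => (mem_filter.1 hU).2.2.1
    have b4 := sum_mem_le (by positivity) (fun X => add_nonneg (df_nonneg _ _ X) (bf_nonneg s X))
      (anch_add aD ab) (g.src k).y
      (univ.filter fun U => g.XtrB j ℓ (L * ℓ) U k) fun U hU => (mem_filter.1 hU).2.2.1
    have b5 : ∀ U ∈ univ.filter (fun U => g.XtrB j ℓ (L * ℓ) U k),
        δ * |g.zt k (g.rem ℓ (L * ℓ) s U)| ≤ 4 * Cx * (2 * g.pn ℓ (h / 2) (δ * ℓ / h ^ 2) U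
          (g.intg ℓ (L * ℓ) s U - g.intg ℓ (L * ℓ) (g.srcSt s.z) U) +
          (g.df ℓ h (δ * ℓ / h ^ 2) s (g.srcSt s.z) U + g.bf ℓ h s U)) := by
      intro U hU
      have hk := (mem_filter.1 hU).2
      have d1 := (hX g L ℓ h _ h' _ a H.a' (by omega) hl hM hh2 U hk.1 _ hk.2.1 _
        (hs.rem_mem ℓ (L * ℓ) U).1).2 k rfl
      have d2 : δ * ℓ / h ^ 2 * (h / 2) ^ 2 = δ / 4 * ℓ := by field_simp; norm_num
      rw [d2] at d1
      have d3 : δ / 4 * |g.zt k (g.rem ℓ (L * ℓ) s U)| ≤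
          Cx * g.pn ℓ (h / 2) (δ * ℓ / h ^ 2) U (g.rem ℓ (L * ℓ) s U) :=
        le_of_mul_le_mul_left (by linarith) hl0
      have d4 : g.rem ℓ (L * ℓ) s U =
          ((g.intg ℓ (L * ℓ) s U - g.intg ℓ (L * ℓ) (g.srcSt s.z) U) -
            g.noF (g.intg ℓ (L * ℓ) s U - g.intg ℓ (L * ℓ) (g.srcSt s.z) U)) -
          (s.car U - (g.srcSt s.z).car U) := by
        have d5 := rem_src hA' (ℓ := ℓ) (ℓ' := L * ℓ) (by omega) (by omega)
          (sep_mono hS (by omega)) s.z U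
        rw [Geo.rem] at d5
        rw [Geo.rem, map_sub]
        linear_combination (exp := 1) d5
      have d6 := a.half.sub_noF (X := U) (F := g.intg ℓ (L * ℓ) s U -
        g.intg ℓ (L * ℓ) (g.srcSt s.z) U) (sub_mem (hs.Cl_mem H.anti U) (H.hs'.Cl_mem H.anti U))
      have d7 := a.half_le (H.dc_mem U)
      have d8 := a.add U (g.dp ℓ U (s.car U - (g.srcSt s.z).car U))
        (bp g ℓ U (s.car U - (g.srcSt s.z).car U))
      rw [dp_add_bp] at d8
      have d9 := bf_split a hs H.hf U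
      have d10 := pn_nonneg (ℓ := ℓ) (h := h) (β := δ * ℓ / h ^ 2) U
        (bp g ℓ U (s.K U - (g.srcSt s.z).K U))
      have d11 := pn_nonneg (ℓ := ℓ) (h := h) (β := δ * ℓ / h ^ 2) U
        (g.dp ℓ U (s.K U - (g.srcSt s.z).K U))
      have d12 : g.pn ℓ (h / 2) (δ * ℓ / h ^ 2) U (g.rem ℓ (L * ℓ) s U) ≤
          2 * g.pn ℓ (h / 2) (δ * ℓ / h ^ 2) U
            (g.intg ℓ (L * ℓ) s U - g.intg ℓ (L * ℓ) (g.srcSt s.z) U) +
          (g.df ℓ h (δ * ℓ / h ^ 2) s (g.srcSt s.z) U + g.bf ℓ h s U) := by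
        rw [d4, Geo.df]
        refine (a.half.sub _ _ _).trans ?_
        linarith
      have d13 := mul_le_mul_of_nonneg_left d12 (by linarith : 0 ≤ Cx)
      linarith
    rw [b1]
    refine (mul_le_mul_of_nonneg_left (abs_sum_le_sum_abs _ _) hδ.le).trans ?_
    rw [mul_sum]
    refine (sum_le_sum b5).trans ?_
    rw [← mul_sum, sum_add_distrib, ← mul_sum]
    have b6 := mul_le_mul_of_nonneg_left (add_le_add (mul_le_mul_of_nonneg_left b3 zero_le_two) b4)
      (by linarith : 0 ≤ 4 * Cx)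
    have b7 := mul_nonneg (by linarith : 0 ≤ 8 * (A * Cc * B) + A * L ^ 2 + Cc * B + 1)
      (add_nonneg hD0 hb0)
    linarith

end Vale.Agent.P144Z.W.Geo.R8

namespace Vale.Agent.P144Z

open W W.FD FM

/-- The steps contract when the boundary is good. -/
theorem stepW : StepW := by
  obtain ⟨C₀, hC₀, ε₀, hε₀, L₀, H⟩ := Geo.R8.step_domW
  refine ⟨min ε₀ (1 / (4 * C₀)), by positivity, fun ε hε hε' => ⟨max L₀ 1, fun L hL => ?_⟩⟩
  obtain ⟨e1, e2⟩ := le_min_iff.1 hε'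
  have hL1 : 1 ≤ L := le_of_max_le_right hL
  obtain ⟨C, hC, H⟩ := H L (le_of_max_le_left hL)
  have h0 : 0 ≤ C₀ * (L : ℝ) ^ 2 := by positivity
  refine ⟨C + C₀ * (L : ℝ) ^ 2, by linarith, fun g ok on lo sep ⟨c, hc, hcL, hb⟩ =>
    ⟨fun j hj => ?_, fun j hj z hz => ?_⟩⟩
  · obtain ⟨κ, σ, n₂, a3, a4, -, a5, a6⟩ := hb j hj
    have h1 : L * sc L j ≤ sc L g.J := by rw [← sc_succ]; exact sc_mono hL1 hj
    refine stepD_mono (H g ok.sign on j (sc L j) hj (eight_le_sc hL1 j) (by omega)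
      (Geo.R8.sepW_mono sep (by omega)) c κ σ n₂ a6 hc (hcL.trans (by gcongr)) a3 a4)
      (by linarith) ?_
    have h2 := mul_le_mul_of_nonneg_left a5 (by linarith : 0 ≤ C₀)
    split_ifs at h2 ⊢
    · linarith
    · rw [le_div_iff₀ (by positivity)] at e2
      linarith
  · obtain ⟨κ, σ, n₂, -, -, -, -, a6⟩ := hb j hj
    exact W.R4a.shr_mono (a6.sch z hz) (by positivity) (mul_le_mul_of_nonneg_right
      (Real.le_sqrt_of_sq_le hcL) (Real.sqrt_nonneg _))

end Vale.Agent.P144Z
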