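import Vale.Agent.P144E.Defs
import Vale.Agent.P144D.R8.Main

/-!
# Steps with a rough boundary: the contraction factors of the small sets and their sum
-/

namespace Vale.Agent.P144Z.W.Geo.R8

open Finset Matrix Vale.Agent.P144Z.Geo Vale.Agent.P144Z.R8 Filter Topology

/-- The number `x` is a contraction factor of the set `U`. -/
def Adm (g : Geo) (L ℓ : ℕ) (k₀ : ℝ) (U : Finset g.P) (x : ℝ) : Prop :=
  0 ≤ x ∧ ∀ k h' β : ℝ, 0 < k → 0 < h' → h' ≤ 4 * k → 0 < β → ∀ F ∈ g.sub U, g.noF F = 0 →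
    g.pn (L * ℓ) h' β U F ≤ k₀ * g.pn ℓ k β U F → g.pn (L * ℓ) h' β U F ≤ x * g.pn ℓ k β U F

open Classical in
/-- The best contraction factor of a small set. -/
noncomputable def ksW (g : Geo) (L ℓ : ℕ) (k₀ : ℝ) (U : Finset g.P) : ℝ :=
  if ∃ k, (g.src k).y ∈ U then k₀ else sInf {x | Adm g L ℓ k₀ U x}

variable {g : Geo} {L ℓ m : ℕ} {c κ s k₀ : ℝ}

theorem adm_self (hk : 0 ≤ k₀) (U : Finset g.P) : Adm g L ℓ k₀ U k₀ :=
  ⟨hk, fun _ _ _ _ _ _ _ _ _ _ h => h⟩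

theorem adm_ksW (hk : 0 ≤ k₀) (U : Finset g.P) : Adm g L ℓ k₀ U (ksW g L ℓ k₀ U) := by
  unfold ksW
  split_ifs
  · exact adm_self hk U
  refine ⟨le_csInf ⟨_, adm_self hk U⟩ fun x hx => hx.1, fun k h' β a1 a2 a3 a4 F hF h0 h1 => ?_⟩
  rcases (pn_nonneg (ℓ := ℓ) (h := k) (β := β) U F).eq_or_lt with h | h
  · rw [← h, mul_zero] at h1 ⊢
    exact h1
  · rw [← div_le_iff₀ h]
    exact le_csInf ⟨_, adm_self hk U⟩ fun x hx =>
      (div_le_iff₀ h).2 (hx.2 k h' β a1 a2 a3 a4 F hF h0 h1)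

theorem ksW_le {U : Finset g.P} (h : ¬ ∃ k, (g.src k).y ∈ U) {x : ℝ} (hx : Adm g L ℓ k₀ U x) :
    ksW g L ℓ k₀ U ≤ x := by
  rw [ksW, if_neg h]
  exact csInf_le ⟨0, fun _ hy => hy.1⟩ hx

theorem ksW_le_self (hk : 0 ≤ k₀) (U : Finset g.P) : ksW g L ℓ k₀ U ≤ k₀ := by
  by_cases h : ∃ k, (g.src k).y ∈ U
  · rw [ksW, if_pos h]
  · exact ksW_le h (adm_self hk U)

theorem adm_ksD (hA : IsW g.A) (hl : 1 ≤ ℓ) (hm : 2 * m + 8 ≤ L) {η : ℝ} (hc : 576 * c ^ 2 ≤ L)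
    (hη : 0 < η) (hηc : η ≤ c) (hκ : 0 < κ) (hκ1 : 8 * κ ≤ 1) (hk : 0 ≤ k₀) (U : Finset g.P) :
    Adm g L ℓ k₀ U (ksD g L ℓ m c η κ k₀ U) :=
  ⟨ksD_nonneg (hη.le.trans hηc) hη.le hk U, fun _ _ _ a1 a2 a3 a4 _ hF h0 h1 =>
    small_le hA hl hm hc hη hηc hκ hκ1 a1 a2 a3 a4 hF h0 h1⟩

open Classical in
theorem sum_ksW (hA : IsW g.A) (hl : 8 ≤ ℓ) (hm : 2 * m + 8 ≤ L) (hM : 16 * (L * ℓ) ≤ g.M)
    (hS : g.SepW (6 * (L * ℓ))) {n₂ : ℕ} (hB : BdW g.A ℓ (L * ℓ) m c κ s n₂) (hc : 0 < c)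
    (hcL : 576 * c ^ 2 ≤ L) (hκ : 0 < κ) (hκ1 : 8 * κ ≤ 1) (hk : 0 ≤ k₀) {f : Finset g.P → ℝ}
    {D : ℝ} (hf : ∀ X, 0 ≤ f X) (hD : Anch ℓ L f D) (z : g.P) :
    ∑ U ∈ (near (2 * (L * ℓ)) z).filter (fun U => stein U ≤ ℓ ∧ Dfc g ℓ U),
      ksW g L ℓ k₀ U * f U ≤ (169 * k₀ + 10000 * bdlW L m c κ s n₂) * D := by
  obtain ⟨Z₀, hZ₀, a1, a2⟩ := lcov_of_sep (ℓ := ℓ) (r := 3 * (L * ℓ))
    (sepW_sep (sepW_mono hS (by omega))) z
  obtain ⟨Z₁, Z₂, hZ₂, hR, hsum, hcov⟩ := hB.cov z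
  have hL : 8 ≤ L := by omega
  have h8 : 8 * ℓ ≤ L * ℓ := Nat.mul_le_mul_right ℓ hL
  have hL0 : (8 : ℝ) ≤ L := by exact_mod_cast hL
  have hD0 := G.anch_nonneg hf hD
  set S := (near (2 * (L * ℓ)) z).filter (fun U => stein U ≤ ℓ ∧ Dfc g ℓ U) with hSd
  set P₀ : Finset g.P → Prop := fun U => ∃ x ∈ U, ∃ y ∈ Z₀, tdist x y ≤ 6 * ℓ
  set P₁ : g.P → Finset g.P → Prop := fun y U => ∃ x ∈ U, tdist x y ≤ m * ℓ
  set P₂ : Finset g.P → Prop := fun U => ∃ x ∈ U, ∃ y ∈ Z₂, tdist x y ≤ m * ℓ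
  have e2 : ∀ y ∈ Z₁, 0 ≤ 576 * (y.2.1 * y.2.2 / L) := fun y hy => by
    have h1 := (hR y hy).1
    have h2 := h1.trans_le (hR y hy).2.1
    positivity
  have e3 : 0 ≤ 32 * κ ^ 2 := by positivity
  have e4 : 0 ≤ c ^ 2 / L := by positivity
  have key : ∀ U ∈ S, ksW g L ℓ k₀ U ≤ 32 * κ ^ 2 + (if P₀ U then k₀ else 0) +
      (∑ y ∈ Z₁, if P₁ y.1 U then 576 * (y.2.1 * y.2.2 / L) else 0) +
      (if P₂ U then 576 * (c ^ 2 / L) else 0) := by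
    intro U hU
    obtain ⟨hn, hs, hd⟩ := mem_filter.1 hU
    obtain ⟨x', hx', hxz⟩ := mem_near.1 hn
    have n0 : ∀ y ∈ Z₁, 0 ≤ if P₁ y.1 U then 576 * (y.2.1 * y.2.2 / L) else 0 := fun y hy => by
      split_ifs
      · exact e2 y hy
      · exact le_rfl
    have n1 := sum_nonneg n0
    have n2 : 0 ≤ if P₂ U then 576 * (c ^ 2 / L) else 0 := by split_ifs <;> positivity
    by_cases h0 : P₀ U
    · have := ksW_le_self (L := L) (ℓ := ℓ) hk U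
      rw [if_pos h0]
      linarith
    rw [if_neg h0, add_zero]
    have hsrc : ¬ ∃ k, (g.src k).y ∈ U := by
      rintro ⟨k, hk⟩
      have b1 := tdist_le_stein hk hx'
      have b2 := tdist_triangle (g.src k).y x' z
      obtain ⟨y, hy, hpc⟩ := a2 k (by omega)
      exact h0 ⟨_, hk, y, hy, by omega⟩
    have h4 : ¬ ∀ x ∈ U, Flat g.A x (2 * stein U + 3 * ℓ) := fun h =>
      hd.resolve_right hsrc ⟨h, by omega⟩
    simp only [Flat, not_forall] at h4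
    obtain ⟨x, hx, p, hp, hfp⟩ := h4
    have b0 : ∀ w ∈ U, tdist p w ≤ 6 * ℓ := fun w hw => by
      have b1 := tdist_le_stein hx hw
      have b2 := tdist_triangle p x w
      omega
    have hp1 : |flux g.A p| ≠ 1 := fun h => by
      have b3 := tdist_triangle p x' z
      have b1 := b0 x' hx'
      obtain ⟨y, hy, hpc⟩ := a1 p (((abs_eq zero_le_one).1 h).resolve_left hfp) (by omega)
      have b4 := tdist_triangle x p y
      rw [tdist_comm x p] at b4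
      exact h0 ⟨x, hx, y, hy, by omega⟩
    have k1 := ksW_le hsrc (adm_ksD (ℓ := ℓ) (m := m) hA (by omega) hm hcL hc le_rfl hκ hκ1 hk U)
    rw [ksD, if_neg hsrc] at k1
    by_cases h2 : ∀ z ∈ U, RN.Shr g.A ℓ (L * ℓ) z κ
    · rw [if_pos h2] at k1
      linarith
    rw [if_neg h2] at k1
    have h3 := h2
    push Not at h3
    obtain ⟨w, hw, hw'⟩ := h3
    have b5 := tdist_le_stein hw hx'
    have b6 := tdist_triangle w x' z
    rcases (hcov w (by omega) ⟨p, b0 w hw, hp1⟩).resolve_left hw' with ⟨y, hy, hwy⟩ | ⟨y, hy, hwy⟩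
    · obtain ⟨r1, r2, r3, r4⟩ := hR y hy
      have k2 := ksW_le hsrc (adm_ksD (ℓ := ℓ) (m := m) hA (by omega) hm
        (le_trans (by have := r1.trans_le r2; gcongr) hcL) r1 r2 hκ hκ1 hk U)
      rw [ksD, if_neg hsrc, if_neg h2, if_pos ⟨y.1, r4, fun v hv => by
        have b7 := tdist_le_stein hv hw
        have b8 := tdist_triangle v w y.1
        rw [add_mul]
        omega⟩] at k2
      have k3 := single_le_sum n0 hy
      rw [if_pos (show P₁ y.1 U from ⟨w, hw, hwy⟩)] at k3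
      linarith
    · rw [if_pos (show P₂ U from ⟨w, hw, y, hy, hwy⟩)]
      rw [if_pos fun v hv => hB.sch v ⟨p, (b0 v hv).trans (by omega), hp1⟩, ← sq] at k1
      split_ifs at k1 <;> linarith
  have s0 := sum_cover (by omega) (by positivity) hf hD Z₀ hZ₀ 6 (S.filter P₀)
    fun U hU => (mem_filter.1 hU).2
  have s1 := fun y : g.P => sum_cover (by omega) (by positivity) hf hD {y} (card_singleton y).le m
    (S.filter (P₁ y)) fun U hU => by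
      obtain ⟨x, hx, h⟩ := (mem_filter.1 hU).2
      exact ⟨x, hx, y, mem_singleton_self y, h⟩
  have s2 := sum_cover (by omega) (by positivity) hf hD Z₂ hZ₂ m (S.filter P₂)
    fun U hU => (mem_filter.1 hU).2
  have s3 := sum_cover (by omega) (by positivity) hf hD {z} (card_singleton z).le (2 * L) S
    fun U hU => by
      obtain ⟨x, hx, h⟩ := mem_near.1 (mem_filter.1 hU).1
      exact ⟨x, hx, z, mem_singleton_self z, by rwa [mul_assoc]⟩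
  refine (sum_le_sum fun U hU => mul_le_mul_of_nonneg_right (key U hU) (hf U)).trans ?_
  have hi : ∀ (P : Finset g.P → Prop) [DecidablePred P] (a : ℝ),
      ∑ U ∈ S, (if P U then a else 0) * f U = a * ∑ U ∈ S.filter P, f U := fun P _ a => by
    rw [sum_filter P, mul_sum]
    exact sum_congr rfl fun U _ => by split_ifs <;> simp
  have u1 : (2 * (m : ℝ) + 1) ^ 2 ≤ 4 * (m + 1) ^ 2 := by nlinarith [Nat.cast_nonneg (α := ℝ) m]
  have t1 : ∑ U ∈ S, (∑ y ∈ Z₁, if P₁ y.1 U then 576 * (y.2.1 * y.2.2 / L) else 0) * f U ≤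
      576 * (s / L) * (4 * (m + 1) ^ 2 * D) := by
    have k : ∀ y ∈ Z₁, ∑ U ∈ S, (if P₁ y.1 U then 576 * (y.2.1 * y.2.2 / L) else 0) * f U ≤
        576 * (y.2.1 * y.2.2 / L) * (4 * (m + 1) ^ 2 * D) := fun y hy => by
      rw [hi (P₁ y.1)]
      refine mul_le_mul_of_nonneg_left ((s1 y.1).trans ?_) (e2 y hy)
      rw [Nat.cast_one, mul_one]
      exact mul_le_mul_of_nonneg_right u1 hD0
    simp only [sum_mul]
    rw [sum_comm]
    refine (sum_le_sum k).trans ?_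
    rw [← sum_mul, ← mul_sum, ← sum_div]
    gcongr
  have hs0 : 0 ≤ s := (sum_nonneg fun y hy => mul_nonneg ((hR y hy).1.le.trans (hR y hy).2.1)
    (hR y hy).1.le).trans hsum
  simp only [add_mul, sum_add_distrib]
  rw [hi P₀, hi P₂, ← mul_sum]
  have t0 := mul_le_mul_of_nonneg_left s0 hk
  have t2 := mul_le_mul_of_nonneg_left s2 (by positivity : 0 ≤ 576 * (c ^ 2 / L))
  have t3 := mul_le_mul_of_nonneg_left s3 e3
  have u3 : (2 * ((2 * L : ℕ) : ℝ) + 1) ^ 2 ≤ 25 * L ^ 2 := by push_cast; nlinarith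
  have v2 := mul_le_mul_of_nonneg_right u1 (by positivity : 0 ≤ 576 * (c ^ 2 / L) * n₂ * D)
  have v3 := mul_le_mul_of_nonneg_right u3 (by positivity : 0 ≤ 32 * κ ^ 2 * D)
  have w1 : 0 ≤ (m + 1 : ℝ) ^ 2 * (s / L * D) := by positivity
  have w2 : 0 ≤ (m + 1 : ℝ) ^ 2 * (c ^ 2 / L * n₂ * D) := by positivity
  have w3 : 0 ≤ (L : ℝ) ^ 2 * κ ^ 2 * D := by positivity
  have e : bdlW L m c κ s n₂ * D = (L : ℝ) ^ 2 * κ ^ 2 * D +
      (m + 1 : ℝ) ^ 2 * (s / L * D) + (m + 1 : ℝ) ^ 2 * (c ^ 2 / L * n₂ * D) := by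
    unfold bdlW
    ring
  rw [mul_assoc 10000, e]
  push_cast at t0 t3 v3
  linarith

end Vale.Agent.P144Z.W.Geo.R8
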